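import Vale.Agent.P163.Lattice

/-!
# Hand-in for P163: O(n) correlations are bounded by XY correlations
-/

namespace Vale.Agent.Results.P163.XYComparison

open MeasureTheory Vale.Agent.P163

theorem result :
    (∀ n : ℕ, 2 ≤ n →
      IsProbabilityMeasure (spinLaw n) ∧ (∀ᵐ v ∂spinLaw n, ‖v‖ = 1) ∧
        (∀ e : EuclideanSpace ℝ (Fin n) ≃ₗᵢ[ℝ] EuclideanSpace ℝ (Fin n),
          Measure.map e (spinLaw n) = spinLaw n) ∧
        ∀ (V : Type) [Fintype V] (J : V → V → ℝ), (∀ a b, 0 ≤ J a b) → ∀ x y : V,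
          0 ≤ onCorr n J x y ∧ onCorr n J x y ≤ (n : ℝ) / 2 * xyCorr J x y) ∧
    (∀ (β C m : ℝ), 0 ≤ β →
      (∀ (Λ : Finset (ℤ × ℤ)) (x y : {v // v ∈ Λ}),
        xyCorr (latticeCoupling Λ β) x y ≤ C * Real.exp (-m * latticeDist x y)) →
      ∀ (n : ℕ), 2 ≤ n → ∀ (Λ : Finset (ℤ × ℤ)) (x y : {v // v ∈ Λ}),
        onCorr n (latticeCoupling Λ β) x y ≤ ((n : ℝ) / 2 * C) * Real.exp (-m * latticeDist x y)) := by
  refine ⟨fun n hn => ⟨inferInstance, spinLaw_norm (by omega), spinLaw_invariant,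
    fun V _ J hJ x y => onCorr_le hn J hJ x y⟩, fun β C m hβ h n hn Λ x y => ?_⟩
  refine (onCorr_le hn _ (latticeCoupling_nonneg Λ hβ) x y).2.trans ?_
  rw [mul_assoc]
  exact mul_le_mul_of_nonneg_left (h Λ x y) (by positivity)

end Vale.Agent.Results.P163.XYComparison
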